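import Vale.Agent.P181.MR.Defs

set_option autoImplicit false

/-! P181, LINE MR, [PAR]: the parameters (pure arithmetic). -/

namespace Vale.Agent.P181.MR.H34

theorem sum_le (n : ℕ) : ∑ i ∈ Finset.range n, i ≤ n * n := by
  calc ∑ i ∈ Finset.range n, i ≤ ∑ _i ∈ Finset.range n, n :=
        Finset.sum_le_sum fun i hi => (Finset.mem_range.1 hi).le
    _ = n * n := by simp

/-- the choice of `B` -/
theorem hasB (ν a : ℕ) (h0 : 200 ≤ ν) (h1 : 8 * ν ≤ a) :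
    ∃ B, 1 ≤ B ∧ 8 * (ν * B) ≤ 5 * a ∧ a ≤ 2 * (ν * B) ∧ 320 * B ≤ a := by
  have hB1 : 8 * ν * (5 * a / (8 * ν)) ≤ 5 * a := Nat.mul_div_le _ _
  have hB2 : 5 * a < 8 * ν * (5 * a / (8 * ν) + 1) :=
    Nat.lt_mul_div_succ (5 * a) (b := 8 * ν) (by omega)
  generalize 5 * a / (8 * ν) = B at hB1 hB2
  have e1 : 8 * ν * B = 8 * (ν * B) := by ring
  have e2 : 8 * ν * (B + 1) = 8 * (ν * B) + 8 * ν := by ring
  have e3 : 200 * B ≤ ν * B := Nat.mul_le_mul_right _ h0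
  have h3 : a ≤ 2 * (ν * B) := by omega
  refine ⟨B, ?_, by omega, h3, by omega⟩
  rcases Nat.eq_zero_or_pos B with h | h
  · rw [h] at h3; omega
  · exact h

/-- the choice of `h` -/
theorem hasH (K a b : ℕ) (h0 : 8 * K ≤ 5 * a) (hK : 0 < K) (h1 : 200 * a ≤ b) :
    ∃ h, 2 ≤ h ∧ 4 * (K * h) ≤ b ∧ 79 * b < 320 * (K * h) := by
  have hh1 : 4 * K * (b / (4 * K)) ≤ b := Nat.mul_div_le _ _
  have hh2 : b < 4 * K * (b / (4 * K) + 1) := Nat.lt_mul_div_succ b (by omega)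
  have hh3 : 2 ≤ b / (4 * K) := by
    rw [Nat.le_div_iff_mul_le (by omega)]; omega
  generalize b / (4 * K) = h at hh1 hh2 hh3
  have e1 : 4 * K * h = 4 * (K * h) := by ring
  have e2 : 4 * K * (h + 1) = 4 * (K * h) + 4 * K := by ring
  exact ⟨h, hh3, by omega, by omega⟩

/-- the powers of `X` -/
theorem pows (X a : ℕ) (hX : 200 ≤ X) (ha : X ^ 40 ≤ a) :
    X ^ 14 * 200 ≤ a ∧ (∀ i, i ≤ 14 → X ^ i ≤ X ^ 14) := by
  have pw : ∀ i j : ℕ, i ≤ j → X ^ i ≤ X ^ j := fun i j h => Nat.pow_le_pow_right (by omega) h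
  refine ⟨?_, fun i hi => pw _ _ hi⟩
  calc X ^ 14 * 200 ≤ X ^ 14 * X := Nat.mul_le_mul_left _ hX
    _ = X ^ 15 := (pow_succ X 14).symm
    _ ≤ X ^ 40 := pw _ _ (by norm_num)
    _ ≤ a := ha

theorem nuB (X r : ℕ) (hR : r + 2 ≤ X ^ 2) (hX : 1 ≤ X ^ 3) :
    X ^ 3 + 1 ≤ (r + 1) * X ^ 3 + 1 ∧ (r + 1) * X ^ 3 + 1 ≤ X ^ 5 := by
  have h1 : (r + 2) * X ^ 3 ≤ X ^ 2 * X ^ 3 := Nat.mul_le_mul_right _ hR
  have h2 : X ^ 2 * X ^ 3 = X ^ 5 := by rw [← pow_add]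
  have h3 : (r + 2) * X ^ 3 = (r + 1) * X ^ 3 + X ^ 3 := by
    rw [show r + 2 = (r + 1) + 1 from rfl, Nat.succ_mul]
  have h4 : (r + 1) * X ^ 3 = r * X ^ 3 + X ^ 3 := Nat.succ_mul _ _
  have h5 : 0 ≤ r * X ^ 3 := Nat.zero_le _
  omega

/-- **[PAR]** -/
theorem par : ParM := by
  intro a b X R w hX2 ha hb hbX hR2 hRX hw hwX
  have hXp : 0 < X := by omega
  have ha0 : 0 < a := lt_of_lt_of_le (Nat.pow_pos hXp) ha
  have hX : 200 ≤ X := Nat.le_of_mul_le_mul_right (le_trans hb hbX) ha0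
  obtain ⟨hbig, pw⟩ := pows X a hX ha
  clear ha
  have p1 : X ^ 1 ≤ X ^ 3 := Nat.pow_le_pow_right hXp (by norm_num)
  rw [pow_one] at p1
  have p3 : X ^ 3 ≤ X ^ 14 := pw 3 (by norm_num)
  have p5 : X ^ 5 ≤ X ^ 14 := pw 5 (by norm_num)
  have p6 : X ^ 6 ≤ X ^ 14 := pw 6 (by norm_num)
  have p7 : X ^ 7 ≤ X ^ 14 := pw 7 (by norm_num)
  have p13 : X ^ 13 ≤ X ^ 14 := pw 13 (by norm_num)
  have p56 : X ^ 5 ≤ X ^ 6 := Nat.pow_le_pow_right hXp (by norm_num)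
  have p612 : X ^ 6 ≤ X ^ 12 := Nat.pow_le_pow_right hXp (by norm_num)
  obtain ⟨r, rfl⟩ : ∃ r, R = r + 2 := ⟨R - 2, by omega⟩
  obtain ⟨hν1, hν5⟩ := nuB X r hRX (by omega)
  have hνe : (r + 2 - 1) * X ^ 3 + 1 = (r + 1) * X ^ 3 + 1 := rfl
  obtain ⟨ν, hν⟩ : ∃ ν, ν = (r + 1) * X ^ 3 + 1 := ⟨_, rfl⟩
  rw [← hν] at hν1 hν5
  have hν0 : 0 < ν := by omega
  have hν200 : 200 ≤ ν := by omega
  obtain ⟨B, hB0, hB1, hBν, hBs⟩ := hasB ν a hν200 (by omega)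
  obtain ⟨h, hh0, hh1, hh2⟩ := hasH (ν * B) a b hB1 (by omega) hb
  obtain ⟨d, hd⟩ : ∃ d, d = h * B := ⟨_, rfl⟩
  obtain ⟨D, hD⟩ : ∃ D, D = ν * d := ⟨_, rfl⟩
  have hDe : ν * B * h = D := by rw [hD, hd]; ring
  rw [hDe] at hh1 hh2
  have hD1 : 4 * D ≤ b := hh1
  have hD2 : 79 * b < 320 * D := hh2
  have hDX : 4 * D ≤ X * a := le_trans hD1 hbX
  have hd2 : 2 ≤ d := by
    rw [hd]
    calc 2 = 2 * 1 := rfl
      _ ≤ h * B := Nat.mul_le_mul hh0 hB0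
  obtain ⟨F, hF⟩ : ∃ F, F = h * ν := ⟨_, rfl⟩
  have hF1 : 2 * F ≤ X ^ 6 := by
    have h1 : (2 * F) * a ≤ (ν * X) * a := by
      calc (2 * F) * a ≤ (2 * F) * (2 * (ν * B)) := Nat.mul_le_mul_left _ hBν
        _ = ν * (4 * D) := by rw [hF, hD, hd]; ring
        _ ≤ ν * (X * a) := Nat.mul_le_mul_left _ hDX
        _ = (ν * X) * a := by ring
    have h2 : 2 * F ≤ ν * X := Nat.le_of_mul_le_mul_right h1 ha0
    calc 2 * F ≤ ν * X := h2
      _ ≤ X ^ 5 * X := Nat.mul_le_mul_right _ hν5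
      _ = X ^ 6 := (pow_succ X 5).symm
  have hd4 : 4 * (X * (X * d)) ≤ a := by
    have h1 : X * (4 * (X * (X * d))) ≤ X * a := by
      calc X * (4 * (X * (X * d))) = 4 * (X ^ 3 * d) := by ring
        _ ≤ 4 * (ν * d) := by
            apply Nat.mul_le_mul_left; apply Nat.mul_le_mul_right; omega
        _ ≤ X * a := by rw [← hD]; exact hDX
    exact Nat.le_of_mul_le_mul_left h1 hXp
  obtain ⟨E, hE⟩ : ∃ E, E = d * ν * X ^ 3 := ⟨_, rfl⟩
  have hE4 : 4 * E ≤ X ^ 4 * a := by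
    calc 4 * E = 4 * D * X ^ 3 := by rw [hE, hD]; ring
      _ ≤ (X * a) * X ^ 3 := Nat.mul_le_mul_right _ hDX
      _ = X ^ 4 * a := by ring
  have hRE : 4 * ((r + 2) * E) ≤ X ^ 6 * a := by
    calc 4 * ((r + 2) * E) = (r + 2) * (4 * E) := by ring
      _ ≤ X ^ 2 * (X ^ 4 * a) := Nat.mul_le_mul hRX hE4
      _ = X ^ 6 * a := by ring
  obtain ⟨Sd, hSd⟩ : ∃ Sd, Sd = ∑ i ∈ Finset.range d, i := ⟨_, rfl⟩
  obtain ⟨SF, hSF⟩ : ∃ SF, SF = ∑ i ∈ Finset.range F, i := ⟨_, rfl⟩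
  have t1 : 800 * (X * ((r + 2) * E)) ≤ a * a := by
    calc 800 * (X * ((r + 2) * E)) = 200 * X * (4 * ((r + 2) * E)) := by ring
      _ ≤ 200 * X * (X ^ 6 * a) := Nat.mul_le_mul_left _ hRE
      _ = (X ^ 7 * 200) * a := by ring
      _ ≤ a * a := Nat.mul_le_mul_right _ (by omega)
  have t2 : 16 * (X * (ν * Sd)) ≤ a * a := by
    calc 16 * (X * (ν * Sd)) ≤ 16 * (X * (ν * (d * d))) := by
          apply Nat.mul_le_mul_left; apply Nat.mul_le_mul_left; apply Nat.mul_le_mul_left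
          rw [hSd]; exact sum_le d
      _ = 4 * X * d * (4 * D) := by rw [hD]; ring
      _ ≤ 4 * X * d * (X * a) := Nat.mul_le_mul_left _ hDX
      _ = (4 * (X * (X * d))) * a := by ring
      _ ≤ a * a := Nat.mul_le_mul_right _ hd4
  have t3 : 200 * (X * SF) ≤ a * a := by
    have hF6 : F ≤ X ^ 6 := by omega
    calc 200 * (X * SF) ≤ 200 * (X * (F * F)) := by
          apply Nat.mul_le_mul_left; apply Nat.mul_le_mul_left; rw [hSF]; exact sum_le F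
      _ ≤ 200 * (X * (X ^ 6 * X ^ 6)) := by
          apply Nat.mul_le_mul_left; apply Nat.mul_le_mul_left; exact Nat.mul_le_mul hF6 hF6
      _ = X ^ 13 * 200 := by ring
      _ ≤ a := by omega
      _ ≤ a * a := Nat.le_mul_of_pos_left _ ha0
  have hsum : 4 * (X * ((r + 2) * E + ν * Sd + SF)) ≤ a * a := by
    have e1 : X * ((r + 2) * E + ν * Sd + SF) = X * ((r + 2) * E) + X * (ν * Sd) + X * SF := by
      ring
    omega
  have hwX' : a * a ≤ X * w := by rw [← pow_two]; exact hwX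
  have hle : (r + 2) * E + ν * Sd + SF ≤ w := by
    have : X * ((r + 2) * E + ν * Sd + SF) ≤ X * w := by omega
    exact Nat.le_of_mul_le_mul_left this hXp
  obtain ⟨W, hW⟩ := Nat.exists_eq_add_of_le hle
  have hWX : 3 * (a * a) ≤ 4 * (X * W) := by
    have e1 : X * w = X * ((r + 2) * E + ν * Sd + SF) + X * W := by rw [hW]; ring
    omega
  obtain ⟨q, l, hWq, hll⟩ : ∃ q l, ν * q + l = W ∧ l < ν :=
    ⟨W / ν, W % ν, Nat.div_add_mod W ν, Nat.mod_lt _ hν0⟩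
  obtain ⟨s, e, hqs, hee⟩ : ∃ s e, d * s + e = q ∧ e < d :=
    ⟨q / d, q % d, Nat.div_add_mod q d, Nat.mod_lt _ (by omega)⟩
  have hDs1 : D * s ≤ w := by
    have h1 : ν * (d * s) ≤ ν * q := Nat.mul_le_mul_left _ (by omega)
    have h2 : D * s = ν * (d * s) := by rw [hD]; ring
    omega
  have hDs2 : W < D * (s + 1) := by
    have h1 : ν * (q + 1) ≤ ν * (d * (s + 1)) := by
      apply Nat.mul_le_mul_left
      have : d * (s + 1) = d * s + d := by ring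
      omega
    have h2 : D * (s + 1) = ν * (d * (s + 1)) := by rw [hD]; ring
    have h3 : ν * (q + 1) = ν * q + ν := by ring
    omega
  have hs1 : 3 * a < X ^ 2 * (s + 1) := by
    have h1 : 3 * a * a < X ^ 2 * (s + 1) * a := by
      calc 3 * a * a = 3 * (a * a) := by ring
        _ ≤ 4 * (X * W) := hWX
        _ < 4 * (X * (D * (s + 1))) := by
            apply Nat.mul_lt_mul_of_pos_left _ (by norm_num)
            exact Nat.mul_lt_mul_of_pos_left hDs2 hXp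
        _ = X * (s + 1) * (4 * D) := by ring
        _ ≤ X * (s + 1) * (X * a) := Nat.mul_le_mul_left _ hDX
        _ = X ^ 2 * (s + 1) * a := by ring
    exact Nat.lt_of_mul_lt_mul_right h1
  have hds : d ≤ s := by
    have h1 : X ^ 2 * (12 * d) < X ^ 2 * (s + 1) := by
      have e1 : X ^ 2 * (12 * d) = 3 * (4 * (X * (X * d))) := by ring
      omega
    have h2 : 12 * d < s + 1 := Nat.lt_of_mul_lt_mul_left h1
    omega
  have hFs : F + ν ≤ s := by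
    have h1 : X ^ 2 * (X ^ 12 * 2) < X ^ 2 * (s + 1) := by
      have : X ^ 2 * (X ^ 12 * 2) = X ^ 14 * 2 := by ring
      omega
    have h2 : X ^ 12 * 2 < s + 1 := Nat.lt_of_mul_lt_mul_left h1
    omega
  have hs20 : 20 * s ≤ a := by
    have h1 : 7900 * s * b ≤ 320 * a * b := by
      calc 7900 * s * b = 100 * s * (79 * b) := by ring
        _ ≤ 100 * s * (320 * D) := Nat.mul_le_mul_left _ hD2.le
        _ = 320 * (100 * (D * s)) := by ring
        _ ≤ 320 * (100 * w) := by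
            apply Nat.mul_le_mul_left; apply Nat.mul_le_mul_left; exact hDs1
        _ ≤ 320 * (a * b) := Nat.mul_le_mul_left _ hw
        _ = 320 * a * b := by ring
    have h2 : 7900 * s ≤ 320 * a := Nat.le_of_mul_le_mul_right h1 (by omega)
    omega
  have hd100 : 100 * d ≤ a := by
    have h1 : 200 * (X * d) ≤ X * (X * d) := Nat.mul_le_mul_right _ hX
    have h2 : 200 * d ≤ X * d := Nat.mul_le_mul_right _ hX
    omega
  have hBν1 : B * (ν - 1) + B = ν * B := by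
    obtain ⟨n, hn⟩ : ∃ n, ν = n + 1 := ⟨ν - 1, by omega⟩
    rw [hn, Nat.add_sub_cancel]; ring
  have hdν : d * ν = D := by rw [hD]; ring
  have hν2 : ν * d ≤ ν * (2 * (d / 2) + 1) := Nat.mul_le_mul_left _ (by omega)
  have hν3 : ν * (2 * (d / 2)) ≤ ν * d := Nat.mul_le_mul_left _ (by omega)
  have hν4 : ν * d ≤ ν * (3 * (d / 2)) := Nat.mul_le_mul_left _ (by omega)
  have e1 : ν * (2 * (d / 2) + 1) = 2 * (ν * (d / 2)) + ν := by ring
  have e2 : ν * (2 * (d / 2)) = 2 * (ν * (d / 2)) := by ring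
  have e3 : ν * (3 * (d / 2)) = 3 * (ν * (d / 2)) := by ring
  rw [e1, ← hD] at hν2
  rw [e2, ← hD] at hν3
  rw [e3, ← hD] at hν4
  refine ⟨X ^ 3, h, B, ν, d, E, F, s, e, l, by omega, by omega, hB0, by rw [hν]; rfl, hd, hE, hF,
    hd2, hee, hll, ?_, hds, hFs, by omega, by omega, by omega, by omega, by omega, by omega,
    by omega, by omega⟩
  have h1 : ν * (d * s + Sd + e) = ν * q + ν * Sd := by rw [← hqs]; ring
  rw [← hSd, ← hSF, h1]; omega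

end Vale.Agent.P181.MR.H34
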